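import Vale.Agent.P063.Main

/-!
# P063: threshold widths of graph and hypergraph properties
-/

open Finset in
/-- For every `r ≥ 2` and `0 < ε < 1/2` the threshold width of every nontrivial increasing
`r`-uniform hypergraph property on `n` vertices is at most `C (log n) ^ (-r/(r-1))`. -/
theorem Vale.Agent.Results.P063.ThresholdWidth.result :
    ∀ r : ℕ, 2 ≤ r → ∀ ε : ℝ, 0 < ε → ε < 1 / 2 →
      ∃ C : ℝ, ∀ n : ℕ, r ≤ n → ∀ P : Finset (Finset (Finset (Fin n))),
        (∀ H ∈ P, H ⊆ univ.powersetCard r) →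
        (∀ σ : Equiv.Perm (Fin n), ∀ H ∈ P, H.image (fun E => E.image σ) ∈ P) →
        (∀ H ∈ P, ∀ H' ⊆ univ.powersetCard r, H ⊆ H' → H' ∈ P) →
        P.Nonempty → P ≠ ((univ : Finset (Fin n)).powersetCard r).powerset →
        sInf {p : ℝ | p ∈ Set.Icc 0 1 ∧
            1 - ε ≤ ∑ H ∈ P, p ^ H.card * (1 - p) ^ (n.choose r - H.card)}
          - sInf {p : ℝ | p ∈ Set.Icc 0 1 ∧
            ε ≤ ∑ H ∈ P, p ^ H.card * (1 - p) ^ (n.choose r - H.card)}
          ≤ C * Real.log n ^ (-((r : ℝ) / ((r : ℝ) - 1))) :=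
  fun r hr e he he2 => Vale.Agent.P063.width_bound hr he he2
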